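import Vale.Agent.P237.Quant.TailData.N83.tailN83N1Part0
import Vale.Agent.P237.Quant.TailData.N83.tailN83N1Part1
import Vale.Agent.P237.Quant.TailData.N83.tailN83N1Part2
import Vale.Agent.P237.Quant.TailData.N83.tailN83N1Part3
import Vale.Agent.P237.Quant.TailData.N83.tailN83N1Part4
import Vale.Agent.P237.Quant.TailData.N83.tailN83N1Part5

/-!
Tail calibration tailN83N1 in dimension 83. The check. Generated data, checked by the kernel.
-/

set_option maxRecDepth 100000
set_option linter.all false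

namespace Vale.Agent.P237.Quant.TailData

open TailCert


/-- The calibration. -/
noncomputable def tailN83N1 : Cfg :=
  tailN83N1Base.withIvals (List.flatten [tailN83N1L0, tailN83N1L1, tailN83N1L2, tailN83N1L3, tailN83N1L4, tailN83N1L5, tailN83N1L6, tailN83N1L7, tailN83N1L8, tailN83N1L9, tailN83N1L10, tailN83N1L11, tailN83N1L12, tailN83N1L13, tailN83N1L14, tailN83N1L15, tailN83N1L16, tailN83N1L17, tailN83N1L18, tailN83N1L19, tailN83N1L20, tailN83N1L21])

theorem tailN83N1_parts : [tailN83N1L0, tailN83N1L1, tailN83N1L2, tailN83N1L3, tailN83N1L4, tailN83N1L5, tailN83N1L6, tailN83N1L7, tailN83N1L8, tailN83N1L9, tailN83N1L10, tailN83N1L11, tailN83N1L12, tailN83N1L13, tailN83N1L14, tailN83N1L15, tailN83N1L16, tailN83N1L17, tailN83N1L18, tailN83N1L19, tailN83N1L20, tailN83N1L21].Forall fun l => tailN83N1Base.partUsed tailN83N1Used l = true := by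
  simp only [List.forall_cons, List.Forall]
  exact ⟨tailN83N1L0_ok, tailN83N1L1_ok, tailN83N1L2_ok, tailN83N1L3_ok, tailN83N1L4_ok, tailN83N1L5_ok, tailN83N1L6_ok, tailN83N1L7_ok, tailN83N1L8_ok, tailN83N1L9_ok, tailN83N1L10_ok, tailN83N1L11_ok, tailN83N1L12_ok, tailN83N1L13_ok, tailN83N1L14_ok, tailN83N1L15_ok, tailN83N1L16_ok, tailN83N1L17_ok, tailN83N1L18_ok, tailN83N1L19_ok, tailN83N1L20_ok, tailN83N1L21_ok⟩

theorem tailN83N1_check : tailN83N1.check = true :=
  Cfg.check_of_parts (by decide +kernel) tailN83N1_parts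

end Vale.Agent.P237.Quant.TailData
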