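import Vale.Agent.P237.Quant.TailData.N83.tailN83P1Part0
import Vale.Agent.P237.Quant.TailData.N83.tailN83P1Part1
import Vale.Agent.P237.Quant.TailData.N83.tailN83P1Part2
import Vale.Agent.P237.Quant.TailData.N83.tailN83P1Part3
import Vale.Agent.P237.Quant.TailData.N83.tailN83P1Part4

/-!
Tail calibration tailN83P1 in dimension 83. The check. Generated data, checked by the kernel.
-/

set_option maxRecDepth 100000
set_option linter.all false

namespace Vale.Agent.P237.Quant.TailData

open TailCert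


/-- The calibration. -/
noncomputable def tailN83P1 : Cfg :=
  tailN83P1Base.withIvals (List.flatten [tailN83P1L0, tailN83P1L1, tailN83P1L2, tailN83P1L3, tailN83P1L4, tailN83P1L5, tailN83P1L6, tailN83P1L7, tailN83P1L8, tailN83P1L9, tailN83P1L10, tailN83P1L11, tailN83P1L12, tailN83P1L13, tailN83P1L14, tailN83P1L15, tailN83P1L16, tailN83P1L17, tailN83P1L18])

theorem tailN83P1_parts : [tailN83P1L0, tailN83P1L1, tailN83P1L2, tailN83P1L3, tailN83P1L4, tailN83P1L5, tailN83P1L6, tailN83P1L7, tailN83P1L8, tailN83P1L9, tailN83P1L10, tailN83P1L11, tailN83P1L12, tailN83P1L13, tailN83P1L14, tailN83P1L15, tailN83P1L16, tailN83P1L17, tailN83P1L18].Forall fun l => tailN83P1Base.partUsed tailN83P1Used l = true := by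
  simp only [List.forall_cons, List.Forall]
  exact ⟨tailN83P1L0_ok, tailN83P1L1_ok, tailN83P1L2_ok, tailN83P1L3_ok, tailN83P1L4_ok, tailN83P1L5_ok, tailN83P1L6_ok, tailN83P1L7_ok, tailN83P1L8_ok, tailN83P1L9_ok, tailN83P1L10_ok, tailN83P1L11_ok, tailN83P1L12_ok, tailN83P1L13_ok, tailN83P1L14_ok, tailN83P1L15_ok, tailN83P1L16_ok, tailN83P1L17_ok, tailN83P1L18_ok⟩

theorem tailN83P1_check : tailN83P1.check = true :=
  Cfg.check_of_parts (by decide +kernel) tailN83P1_parts

end Vale.Agent.P237.Quant.TailData
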