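import Vale.Agent.P237.Quant.TailData.N83.tailN83P3Part0
import Vale.Agent.P237.Quant.TailData.N83.tailN83P3Part1
import Vale.Agent.P237.Quant.TailData.N83.tailN83P3Part2
import Vale.Agent.P237.Quant.TailData.N83.tailN83P3Part3
import Vale.Agent.P237.Quant.TailData.N83.tailN83P3Part4
import Vale.Agent.P237.Quant.TailData.N83.tailN83P3Part5

/-!
Tail calibration tailN83P3 in dimension 83. The check. Generated data, checked by the kernel.
-/

set_option maxRecDepth 100000
set_option linter.all false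

namespace Vale.Agent.P237.Quant.TailData

open TailCert


/-- The calibration. -/
noncomputable def tailN83P3 : Cfg :=
  tailN83P3Base.withIvals (List.flatten [tailN83P3L0, tailN83P3L1, tailN83P3L2, tailN83P3L3, tailN83P3L4, tailN83P3L5, tailN83P3L6, tailN83P3L7, tailN83P3L8, tailN83P3L9, tailN83P3L10, tailN83P3L11, tailN83P3L12, tailN83P3L13, tailN83P3L14, tailN83P3L15, tailN83P3L16, tailN83P3L17, tailN83P3L18, tailN83P3L19, tailN83P3L20, tailN83P3L21])

theorem tailN83P3_parts : [tailN83P3L0, tailN83P3L1, tailN83P3L2, tailN83P3L3, tailN83P3L4, tailN83P3L5, tailN83P3L6, tailN83P3L7, tailN83P3L8, tailN83P3L9, tailN83P3L10, tailN83P3L11, tailN83P3L12, tailN83P3L13, tailN83P3L14, tailN83P3L15, tailN83P3L16, tailN83P3L17, tailN83P3L18, tailN83P3L19, tailN83P3L20, tailN83P3L21].Forall fun l => tailN83P3Base.partUsed tailN83P3Used l = true := by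
  simp only [List.forall_cons, List.Forall]
  exact ⟨tailN83P3L0_ok, tailN83P3L1_ok, tailN83P3L2_ok, tailN83P3L3_ok, tailN83P3L4_ok, tailN83P3L5_ok, tailN83P3L6_ok, tailN83P3L7_ok, tailN83P3L8_ok, tailN83P3L9_ok, tailN83P3L10_ok, tailN83P3L11_ok, tailN83P3L12_ok, tailN83P3L13_ok, tailN83P3L14_ok, tailN83P3L15_ok, tailN83P3L16_ok, tailN83P3L17_ok, tailN83P3L18_ok, tailN83P3L19_ok, tailN83P3L20_ok, tailN83P3L21_ok⟩

theorem tailN83P3_check : tailN83P3.check = true :=
  Cfg.check_of_parts (by decide +kernel) tailN83P3_parts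

end Vale.Agent.P237.Quant.TailData
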